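import Vale.Agent.P049.TS.Asm.Rts

/-!
The final theorem.
-/

namespace Vale.Agent.P049.TS

/-- For every `d ≥ 3` there is a deterministic polynomial time construction of `d`-regular
Ramanujan graphs of every large order `n` with `d n` even. -/
theorem mainT (d : ℕ) (hd : 3 ≤ d) :
    ∃ f : ℕ → List Bool,
      (∃ M : Turing.TM2ComputableInPolyTime (fun n : ℕ => List.replicate n true)
        (id : List Bool → List Bool) f, ∀ k, Finite (M.tm.Γ k)) ∧
      ∃ n₁ : ℕ, ∀ n : ℕ, n₁ ≤ n → Even (d * n) →
        ∃ (G : SimpleGraph (Fin n)) (_ : DecidableRel G.Adj),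
          IsRamanujanUpTo d 0 G ∧
          f n = (List.ofFn fun i : Fin n => List.ofFn fun j : Fin n =>
            decide (G.Adj i j)).flatten :=
  Asm.final hd

end Vale.Agent.P049.TS
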