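import Mathlib

/-! Ramanujan graphs. -/

namespace Vale.Agent.P049

/-- A simple `d`-regular graph is Ramanujan if the eigenvalues of its adjacency matrix, listed with
multiplicity (the roots of the characteristic polynomial), are `d` (for the constant vector) and
further eigenvalues `μ`, all of them with `|μ| ≤ 2 √(d-1)`. -/
def IsRamanujan {V : Type*} [Fintype V] [DecidableEq V] (d : ℕ) (G : SimpleGraph V)
    [DecidableRel G.Adj] : Prop :=
  G.IsRegularOfDegree d ∧
    ∃ s : Multiset ℝ, (G.adjMatrix ℝ).charpoly.roots = (d : ℝ) ::ₘ s ∧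
      ∀ μ ∈ s, |μ| ≤ 2 * √((d : ℝ) - 1)

end Vale.Agent.P049
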