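import Vale.Agent.P049.TS.Ramanujan
import Vale.Agent.P049.GraphDefsT

/-! `IsRamanujanUpTo d 0` is the same as `IsRamanujan d`. -/

namespace Vale.Agent.P049

theorem IsRamanujanUpTo.isRamanujan {V : Type*} [Fintype V] [DecidableEq V] {d : ℕ}
    {G : SimpleGraph V} [DecidableRel G.Adj] (h : IsRamanujanUpTo d 0 G) : IsRamanujan d G := by
  obtain ⟨h1, s, h2, h3, h4⟩ := h
  refine ⟨h1, s, h2, fun μ hμ => ?_⟩
  have h5 : s.filter (fun μ => μ < -(2 * √((d : ℝ) - 1))) = 0 :=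
    Multiset.card_eq_zero.1 (Nat.le_zero.1 h4)
  have h6 : ¬ μ < -(2 * √((d : ℝ) - 1)) := fun h => by
    have : μ ∈ s.filter (fun μ => μ < -(2 * √((d : ℝ) - 1))) := Multiset.mem_filter.2 ⟨hμ, h⟩
    rw [h5] at this
    exact absurd this (Multiset.notMem_zero μ)
  exact abs_le.2 ⟨not_lt.1 h6, h3 μ hμ⟩

end Vale.Agent.P049
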